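import Vale.Agent.P144Z.R1.Alg
import Vale.Agent.P144Z.RN.Shr
import Vale.Agent.P144Z.KP.Log

/-!
Block R1: the norms of the flow.
-/

namespace Vale.Agent.P144Z

open Finset Matrix Filter Topology

set_option linter.unusedSectionVars false
set_option linter.unusedVariables false

namespace R1

open RN

variable {g : Geo} {ℓ ℓ' : ℕ} {h h' β β' : ℝ} {X : Finset g.P}

theorem nrm_del_sv (hℓ : 1 ≤ ℓ) (hh : 0 < h) (hβ : 0 < β) {G : Gr g.S} (hG : G ∈ loc (g.gens X))
    (k : g.K) (i : Fin 2) : √β * nrm (g.cons ℓ h β X) (g.gens X) (del (sv g k i) G)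
      ≤ nrm (g.cons ℓ h β X) (g.gens X) G := by
  have e : ExteriorAlgebra.map (LinearMap.id + (-1 : ℝ) • (pair (sv g k i)).smulRight (sv g k i))
      (del (sv g k i) G) = del (sv g k i) G := by
    rw [A5.map_rank_one, A1.del_del, map_zero, mul_zero, smul_zero, add_zero, map_id']
  have key := nrm_del (adm hℓ hh hβ X) (adm hℓ hh hβ X)
    (LinearMap.id + (-1 : ℝ) • (pair (sv g k i)).smulRight (sv g k i)) (g := sv g k i)
    (Real.sqrt_nonneg β) (fun r hr p hp => by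
      show opn (r.Ψ (p.1 + (-1 : ℝ) • (p.1 ⬝ᵥ sv g k i) • sv g k i)) + _ ≤ _
      rcases cons_cases hp with ⟨z, hz, δ, c, h1, hc, hd, rfl⟩ | ⟨k', i', hy, rfl⟩
      · dsimp only
        rw [ex_dot_src, zero_smul, smul_zero, add_zero, abs_zero, mul_zero, add_zero]
        exact In.fld hr hz h1 hc hd
      · dsimp only
        rw [sv_dot]
        split_ifs with h2
        · obtain ⟨rfl, rfl⟩ := Prod.ext_iff.1 h2
          rw [one_smul, neg_one_smul, add_neg_cancel, opn_Psi_zero, abs_one, mul_one, zero_add]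
        · rw [zero_smul, smul_zero, add_zero, abs_zero, mul_zero, add_zero]
          exact In.src hr hy i') hG (by rw [e]; exact del_loc _ hG)
  rwa [e] at key

theorem pn_noF' (hℓ : 1 ≤ ℓ) (hh : 0 < h) (hβ : 0 < β) (hℓ' : 1 ≤ ℓ') (hh' : 0 < h') {F : g.E}
    (hF : F ∈ g.sub X) : g.pn ℓ' h' β X (g.noF F) ≤ g.pn ℓ h β X F :=
  pn_evMap hℓ hh hβ hℓ' hh' hβ _ hF (noF_mem hF) fun r hr p hp => by
    rcases cons_cases hp with ⟨z, hz, δ, c, hs, hc, hd, rfl⟩ | ⟨k, i, hk, rfl⟩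
    · show opn (r.Ψ (prB g (g.ex δ))) ≤ h * c
      rw [prB_ex, opn_Psi_zero]; positivity
    · show opn (r.Ψ (prB g (Pi.single (Sum.inr (k, i)) 1))) ≤ √β
      rw [prB_src]; exact In.src hr hk i

theorem scale_eq (t : ℝ) : t • prF g + prB g = LinearMap.id + (t - 1) • prF g := by
  refine LinearMap.ext fun δ => funext fun s => ?_
  cases s <;> simp [res_apply]
  ring

theorem scale_mem (t : ℝ) {F : g.E} (hF : F ∈ g.sub X) :
    evMap (t • prF g + prB g) F ∈ g.sub X :=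
  diag_mem (c := Sum.elim (fun _ => t) fun _ => 1) (fun s => by
    rcases s with s | s
    · rw [← ex_single, LinearMap.add_apply, LinearMap.smul_apply, prF_ex, prB_ex, add_zero]
      rfl
    · rw [LinearMap.add_apply, LinearMap.smul_apply, prF_src, prB_src, smul_zero, zero_add]
      exact (one_smul ℝ _).symm) hF

/-- The Schwarz lemma for a perturbation of the identity. -/
theorem opn_pert {S : Type} [Fintype S] [DecidableEq S] {𝒞 : Set ((S → ℝ) × ℝ)} {F : Gr S} {N : ℝ}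
    (hN : ∀ r : Rep S, r.In 𝒞 → opn (r.ev F) ≤ N) (L : (S → ℝ) →ₗ[ℝ] (S → ℝ)) (r : Rep S) {ρ : ℝ}
    (hρ : 0 < ρ) (hρ1 : ρ ≤ 1) (hr : ∀ p ∈ 𝒞, opn (r.Ψ p.1) + opn (r.Ψ (L p.1)) / ρ ≤ p.2) :
    opn (r.ev (ExteriorAlgebra.map (LinearMap.id + L) F - F)) ≤ 2 * ρ * N := by
  set Q := wsub ![LinearMap.id, L] ![0, 1] F with hQ
  have h0 : r.ev (Q.coeff 0) = r.ev F := by rw [hQ, A5.coeff_zero, map_id']
  have hF : opn (r.ev F) ≤ N := hN r fun p hp =>
    le_trans (le_add_of_nonneg_right (div_nonneg (A5.opn_nonneg _) hρ.le)) (hr p hp)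
  have e : ∀ t : ℂ, ∑ k ∈ range (Q.natDegree + 1), t ^ k • (if k = 0 then 0 else r.ev (Q.coeff k))
      = A5.rtE r ![LinearMap.id, L] (fun i => t ^ (![0, 1] : Fin 2 → ℕ) i) F + (-1 : ℂ) • r.ev F :=
    fun t => by
      rw [A5.rt_ev_poly, ← hQ, sum_range_succ', sum_range_succ', h0]
      simp
  have h := A5.schwarz (range (Q.natDegree + 1)) (fun k => if k = 0 then 0 else r.ev (Q.coeff k))
    (m := 1) (fun k hk => if_pos (by omega)) hρ hρ1 (N := 2 * N) fun t ht => by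
      rw [e]
      refine (A5.opn_add _ _).trans ?_
      have h1 := A5.rt_le hN r ![LinearMap.id, L] ![0, 1] (ρ := ρ) (by simpa using hr) ht
      rw [A5.opn_csmul, norm_neg, norm_one, one_mul]
      linarith
  have e1 := e 1
  rw [A5.rt_ev_real r _ _ (LinearMap.id + L) (fun δ => by simp)] at e1
  simp only [one_pow, one_smul] at e1
  rw [e1, neg_one_smul, ← sub_eq_add_neg, ← map_sub, pow_one] at h
  linarith

/-- The iterated coefficient of the source variables. -/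
noncomputable def dbs (g : Geo) : List g.K → Gr g.S →ₗ[ℝ] Gr g.S
  | [] => LinearMap.id
  | k :: l => dbs g l ∘ₗ g.db k

theorem dbs_eq (l : List g.K) (F : Gr g.S) : dbs g l F = CAR.dls
    ((l.flatMap fun k => [(k, (0 : Fin 2)), (k, 1)]).map fun i => pair (sv g i.1 i.2)) F := by
  induction l generalizing F with
  | nil => rfl
  | cons k l ih => exact ih _

theorem db_bv_mul (k : g.K) {G : Gr g.S} (hG : ∀ i, del (sv g k i) G = 0) (a : ℝ) :
    g.db k (Ev.val (1 + a • g.bv k) * G) = a • G := by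
  have e : del (sv g k 0) (psi (sv g k 0) * (psi (sv g k 1) * G)) = psi (sv g k 1) * G := by
    rw [del_psi_mul, del_psi_mul, hG, sv_dot, sv_dot]
    simp
  rw [map_add, map_one, map_smul, val_bv, add_mul, one_mul, smul_mul_assoc, map_add, map_smul,
    db_apply, db_apply, hG, map_zero, zero_add, mul_assoc, e, del_psi_mul, hG, sv_dot]
  simp

theorem dbs_prod (a : g.K → ℝ) (l : List g.K) (hl : l.Nodup) :
    dbs g l (Ev.val (l.map fun k => 1 + a k • g.bv k).prod) = (l.map a).prod • 1 := by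
  induction l with
  | nil => simp [dbs]
  | cons k l ih =>
    obtain ⟨h1, h2⟩ := List.nodup_cons.1 hl
    have h3 : Ev.val (l.map fun k => 1 + a k • g.bv k).prod
        ∈ loc {s : g.S | ∀ i, s ≠ Sum.inr (k, i)} := by
      rw [map_list_prod]
      refine Subalgebra.list_prod_mem _ fun x hx => ?_
      rw [List.map_map] at hx
      obtain ⟨k', hk', rfl⟩ := List.mem_map.1 hx
      have h4 : ∀ j, psi (sv g k' j) ∈ loc {s : g.S | ∀ i, s ≠ Sum.inr (k, i)} := fun j =>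
        A1.gen_mem (T := {s : g.S | ∀ i, s ≠ Sum.inr (k, i)}) fun i e =>
          h1 (by rw [← show k' = k from congrArg Prod.fst (Sum.inr_injective e)]; exact hk')
      rw [Function.comp_apply, map_add, map_one, map_smul, val_bv]
      exact Subalgebra.add_mem _ (Subalgebra.one_mem _)
        (Subalgebra.smul_mem _ (Subalgebra.mul_mem _ (h4 0) (h4 1)) _)
    rw [List.map_cons, List.prod_cons, map_mul, dbs, LinearMap.comp_apply, db_bv_mul k fun i => by
      rw [del_congr (g' := 0) h3 fun s hs => Pi.single_eq_of_ne (hs i) _, A1.del_zero_left],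
      map_smul, ih h2, List.map_cons, List.prod_cons, smul_smul]

theorem dbs_scB (s : ℝ) (l : List g.K) (F : Gr g.S) :
    dbs g l (ExteriorAlgebra.map
        (LinearMap.id + (s - 1) • res {t : g.S | ∃ k, t = Sum.inr (k, 0)}) F)
      = s ^ l.length • ExteriorAlgebra.map
        (LinearMap.id + (s - 1) • res {t : g.S | ∃ k, t = Sum.inr (k, 0)}) (dbs g l F) := by
  induction l generalizing F with
  | nil => simp [dbs]
  | cons k l ih =>
    rw [dbs, LinearMap.comp_apply, LinearMap.comp_apply, db_apply, db_apply,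
      del_map _ (s • sv g k 0) (sv g k 0) (A1.mem_loc_univ F) fun t _ => by
        rw [dotProduct_single_one]
        simp [res_apply, Pi.single_apply, eq_comm]
        split_ifs <;> ring,
      del_map _ (sv g k 1) (sv g k 1) (A1.mem_loc_univ _) fun t _ => by
        rw [dotProduct_single_one]
        simp [res_apply, Pi.single_apply, eq_comm],
      ih, A1.del_smul_left, map_smul, map_smul, map_smul, smul_smul, List.length_cons, pow_succ]

end R1

namespace Geo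

section R1
variable {g : Geo} {ℓ ℓ' : ℕ} {h h' β β' : ℝ} {X Y : Finset g.P} {F : g.E}

variable (hA : IsSign g.A) (hℓ : 1 ≤ ℓ) (hh : 0 < h) (hβ : 0 < β) (hF : F ∈ g.sub X)
include hA hℓ hh hβ hF

theorem pn_noF_le : g.pn ℓ h β X (g.noF F) ≤ g.pn ℓ h β X F := RN.pn_noF hℓ hh hβ hF
theorem pn_noB_le : g.pn ℓ h β X (g.noB F) ≤ g.pn ℓ h β X F := RN.pn_noB hℓ hh hβ hβ hF
theorem pn_dp_le (ℓ₁ : ℕ) (Y : Finset g.P) :
    g.pn ℓ h β X (g.dp ℓ₁ Y F) ≤ 2 * g.pn ℓ h β X F := by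
  have h1 := RN.pn_noB hℓ hh hβ hβ hF
  have h2 := RN.pn_sub (X := X) hℓ hh hβ F (g.noB F)
  have h3 : 0 ≤ g.pn ℓ h β X F := RN.pn_nonneg F
  unfold Geo.dp
  split_ifs <;> linarith
theorem abs_aug_le_pn : |aug (Ev.val F)| ≤ g.pn ℓ h β X F := RN.abs_aug_le_pn hℓ hh hβ F
theorem pn_db_le (k : g.K) :
    β * g.pn ℓ h β X (toEv (g.db k (Ev.val F))) ≤ g.pn ℓ h β X F := by
  have h1 := R1.nrm_del_sv hℓ hh hβ (RN.sub_loc hF) k 0
  have h2 := R1.nrm_del_sv hℓ hh hβ (del_loc (R1.sv g k 0) (RN.sub_loc hF)) k 1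
  have h3 := mul_le_mul_of_nonneg_left h2 (Real.sqrt_nonneg β)
  rw [← mul_assoc, Real.mul_self_sqrt hβ.le] at h3
  unfold Geo.pn
  rw [R1.val_db]
  exact h3.trans h1

/-- The norm of a source-free element does not depend on the source weight. -/
theorem pn_noB_eq (hβ' : 0 < β') : g.pn ℓ h β' X (g.noB F) = g.pn ℓ h β X (g.noB F) := by
  have h1 := RN.pn_noB hℓ hh hβ hβ' (noB_mem hF)
  have h2 := RN.pn_noB hℓ hh hβ' hβ (noB_mem hF)
  rw [noB_noB] at h1 h2
  exact le_antisymm h1 h2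

/-- The norm of an element of the source algebra does not depend on the scale and the radius. -/
theorem pn_noF_eq (hℓ' : 1 ≤ ℓ') (hh' : 0 < h') :
    g.pn ℓ' h' β X (g.noF F) = g.pn ℓ h β X (g.noF F) := by
  have h1 := R1.pn_noF' hℓ hh hβ hℓ' hh' (noF_mem hF)
  have h2 := R1.pn_noF' hℓ' hh' hβ hℓ hh (noF_mem hF)
  rw [noF_noF] at h1 h2
  exact le_antisymm h1 h2

theorem pn_mono (hh' : 0 < h') (hβ' : 0 < β') (h1 : h' ≤ h) (h2 : β' ≤ β) :
    g.pn ℓ h' β' X F ≤ g.pn ℓ h β X F := RN.pn_mono hℓ hh' hβ' h1 h2 subset_rfl hF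

open Classical in
/-- Increase of the source weight. -/
theorem pn_weight (h1 : β ≤ β') : g.pn ℓ h β' X F ≤
    (4 * β' / β) ^ (univ.filter fun k => (g.src k).y ∈ X).card * g.pn ℓ h β X F := by
  have h2 : 1 ≤ β' / β := (one_le_div hβ).2 h1
  have h3 : √(β' / β) ^ 2 = β' / β := Real.sq_sqrt (by linarith)
  have h4 := RN.pn_beta hℓ hh hβ (hβ.trans_le h1) (Real.one_le_sqrt.2 h2)
    (by rw [h3, div_mul_cancel₀ _ hβ.ne']) hF
  rw [pow_mul, mul_pow, h3, show (2 : ℝ) ^ 2 * (β' / β) = 4 * β' / β by ring] at h4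
  convert h4

/-- Rescaling of the fields. -/
theorem pn_scale {t : ℝ} (ht : |t - 1| ≤ 1) :
    g.pn ℓ h β X (evMap (t • res (Set.range Sum.inl) + res (Set.range Sum.inr)) F - F)
      ≤ 2 * |t - 1| * g.pn ℓ (2 * h) β X F := by
  refine RN.pn_le hℓ hh hβ (Subalgebra.sub_mem _ (R1.scale_mem t hF) hF) fun r hr => ?_
  rw [map_sub, val_evMap, R1.scale_eq]
  rcases eq_or_ne t 1 with rfl | h1
  · rw [sub_self, zero_smul, add_zero, R1.map_id', sub_self, map_zero, A5.opn_zero, abs_zero,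
      mul_zero, zero_mul]
  have h2 : 0 < |t - 1| := abs_pos.2 (sub_ne_zero.2 h1)
  refine R1.opn_pert (fun r hr => RN.le_pn hℓ (by positivity) hβ hF hr) _ r h2 ht fun p hp => ?_
  rw [LinearMap.smul_apply, map_smul, A5.opn_rsmul, mul_div_cancel_left₀ _ h2.ne']
  rcases RN.cons_cases hp with ⟨z, hz, δ, c, s1, hc, hd, rfl⟩ | ⟨k, i, hy, rfl⟩
  · dsimp only
    rw [RN.prF_ex]
    have := RN.In.fld hr hz s1 hc hd
    linarith
  · dsimp only
    rw [RN.prF_src, RN.opn_Psi_zero, add_zero]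
    exact RN.In.src hr hy i

/-- Change of scale with a uniform factor. -/
theorem pn_sch {κ ρ : ℝ} (hκ : 0 ≤ κ) (hℓℓ : ℓ ≤ ℓ') (hh' : 0 < h')
    (hs : ∀ z ∈ X, g.Sch ℓ ℓ' κ z) (hρ0 : 0 < ρ) (hρ : h' * κ ≤ ρ * h) :
    (ρ ≤ 1 → g.pn ℓ' h' β X F ≤ g.pn ℓ h β X F) ∧
      (ρ ≤ 1 / 2 → g.noF F = 0 → g.pn ℓ' h' β X F ≤ 2 * ρ ^ 2 * g.pn ℓ h β X F) :=
  ⟨fun h1 => RN.pn_shr hℓ hℓℓ hh hh' hβ le_rfl subset_rfl hκ hs
      (hρ.trans (mul_le_of_le_one_left hh.le h1)) hF,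
    fun h1 h0 => RN.pn_small hℓ hℓℓ hh hh' hβ le_rfl subset_rfl hκ hs hρ0 h1 hρ hF h0⟩

omit hA hℓ hh hβ hF in
theorem pn_bv (k : g.K) (hA : IsSign g.A) (hℓ : 1 ≤ ℓ) (hh : 0 < h) (hβ : 0 < β)
    (hk : (g.src k).y ∈ X) : g.pn ℓ h β X (g.bv k) ≤ β := by
  have h1 : ∀ i, nrm (g.cons ℓ h β X) (g.gens X) (psi (R1.sv g k i)) ≤ √β := fun i =>
    nrm_psi (RN.adm hℓ hh hβ X) (Or.inr ⟨k, i, hk, rfl⟩) fun s hs =>
      Pi.single_eq_of_ne (fun e => hs (by rw [e]; exact hk)) _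
  unfold Geo.pn
  rw [R1.val_bv]
  refine (nrm_mul (RN.adm hℓ hh hβ X) _ _).trans ?_
  exact (mul_le_mul (h1 0) (h1 1) (nrm_nonneg _) (Real.sqrt_nonneg _)).trans_eq
    (Real.mul_self_sqrt hβ.le)

omit hA hℓ hh hβ hF in
/-- The coefficient of the product of all source variables. -/
theorem exists_top (g : Geo) : ∃ top : g.E →ₗ[ℝ] ℝ,
    (∀ a : g.K → ℝ, top (NormedSpace.exp (∑ k, a k • g.bv k)) = ∏ k, a k) ∧
    (∀ s F, top (g.scB s F) = s ^ Fintype.card g.K * top F) ∧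
    ∀ (ℓ : ℕ) (h β : ℝ), IsSign g.A → 1 ≤ ℓ → 0 < h → 0 < β → ∀ F,
      β ^ Fintype.card g.K * |top F| ≤ g.pn ℓ h β univ F := by
  refine ⟨aug.toLinearMap ∘ₗ R1.dbs g univ.toList ∘ₗ (Ev.val (S := g.S)).toLinearMap,
    fun a => ?_, fun s F => ?_, fun ℓ h β _ hℓ hh hβ F => ?_⟩
  · show aug (R1.dbs g univ.toList (Ev.val _)) = _
    rw [KP.exp_sum', prod_congr rfl fun k _ => exp_sq_zero (I2.smul_sq (bv_sq k) (a k)),
      ← prod_map_toList, R1.dbs_prod a _ (nodup_toList _), prod_map_toList, map_smul, map_one,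
      smul_eq_mul, mul_one]
  · show aug (R1.dbs g univ.toList (Ev.val (evMap _ F))) = _ * aug (R1.dbs g univ.toList (Ev.val F))
    rw [val_evMap, R1.dbs_scB, map_smul, aug_map, length_toList, card_univ, smul_eq_mul]
  · show _ * |aug (R1.dbs g univ.toList (Ev.val F))| ≤ _
    have key := A3.abs_dls_le (RN.adm hℓ hh hβ univ) (R1.loc_univ (Ev.val F))
      (fun i : g.K × Fin 2 => R1.sv g i.1 i.2) (fun _ => √β) (fun _ => Real.sqrt_pos.2 hβ)
      (fun p hp => by
        rcases RN.cons_cases hp with ⟨z, hz, δ, c, s1, hc, hd, rfl⟩ | ⟨k, i, hy, rfl⟩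
        · simp only [RN.ex_dot_src, abs_zero, mul_zero, sum_const_zero]
          positivity
        · dsimp only
          rw [sum_eq_single (k, i) (fun j _ hj => by
            rw [R1.sv_dot, if_neg (Ne.symm hj), abs_zero, mul_zero]) (fun h => (h (mem_univ _)).elim),
            R1.sv_dot, if_pos rfl, abs_one, mul_one])
      (univ.toList.flatMap fun k => [(k, (0 : Fin 2)), (k, 1)])
    have e : ∀ l : List g.K, ((l.flatMap fun k => [(k, (0 : Fin 2)), (k, 1)]).map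
        fun _ => √β).prod = β ^ l.length := fun l => by
      induction l with
      | nil => simp
      | cons k l ih =>
        rw [List.flatMap_cons, List.map_append, List.prod_append, ih, List.length_cons, pow_succ']
        simp [Real.mul_self_sqrt hβ.le]
    rwa [← R1.dbs_eq, e, length_toList, card_univ] at key

omit hA hℓ hh hβ hF in
theorem sch_triv (hℓ : 1 ≤ ℓ) (hℓℓ : ℓ ≤ ℓ') (z : g.P) : g.Sch ℓ ℓ' √((ℓ' : ℝ) / ℓ) z := by
  have h0 : (0 : ℝ) < ℓ := by exact_mod_cast hℓ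
  exact RN.shr_triv g.A hℓℓ z (by
    rw [Real.sq_sqrt (by positivity), div_mul_cancel₀ _ h0.ne'])
end R1

end Geo

end Vale.Agent.P144Z
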