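import Vale.Agent.P144Z.Top
import Vale.Agent.P144Z.RN.Exp
import Vale.Agent.P144Z.A2.Main
import Vale.Agent.P144Z.A5.Main
import Vale.Agent.P144Z.I2.Quad

/-!
Block R1, algebraic half: the projections on the fields and on the sources.
-/

namespace Vale.Agent.P144Z

open Finset Matrix Filter Topology

set_option linter.unusedSectionVars false
set_option linter.unusedVariables false

namespace R1

open RN

section gen

variable {S : Type} [Fintype S] [DecidableEq S]

theorem evMap_evMap (f f' : (S → ℝ) →ₗ[ℝ] (S → ℝ)) (F : Ev S) :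
    evMap f (evMap f' F) = evMap (f ∘ₗ f') F :=
  Ev.val_injective (by rw [val_evMap, val_evMap, val_evMap, RN.map_map])

theorem evMap_zero (F : Ev S) :
    evMap (0 : (S → ℝ) →ₗ[ℝ] (S → ℝ)) F = aug (Ev.val F) • (1 : Ev S) :=
  Ev.val_injective (by rw [val_evMap, I2.map_zero_eq, map_smul, map_one])

theorem res_res (T : Set S) : res T ∘ₗ res T = res T := by
  refine LinearMap.ext fun δ => funext fun s => ?_
  rw [LinearMap.comp_apply, res_apply, res_apply]
  split_ifs <;> rfl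

theorem map_neg_id (F : Gr S) :
    ExteriorAlgebra.map (-LinearMap.id : (S → ℝ) →ₗ[ℝ] (S → ℝ)) F
      = CliffordAlgebra.involute F := by
  induction F using A1.left_ind with
  | h1 => rw [map_one, map_one]
  | hadd F G hF hG => rw [map_add, map_add, hF, hG]
  | hsmul c F hF => rw [map_smul, map_smul, hF]
  | hpsi a F hF =>
    rw [map_mul, map_mul, hF, A1.map_psi, A1.inv_psi]
    exact congrArg (· * _) (map_neg (ExteriorAlgebra.ι ℝ) a)

theorem map_id' (F : Gr S) :
    ExteriorAlgebra.map (LinearMap.id : (S → ℝ) →ₗ[ℝ] (S → ℝ)) F = F := by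
  rw [ExteriorAlgebra.map_id, AlgHom.id_apply]

theorem del_del_even {F : Gr S} (hF : F ∈ evenS S) (a b : S → ℝ) : del a (del b F) ∈ evenS S :=
  A1.mem_even_iff.2 (by rw [A1.inv_del, A1.inv_del, A1.mem_even_iff.1 hF, map_neg, neg_neg])

end gen

variable {g : Geo}

/-- The smearing function of a source generator. -/
noncomputable abbrev sv (g : Geo) (k : g.K) (i : Fin 2) : g.S → ℝ := Pi.single (Sum.inr (k, i)) 1

theorem db_apply (k : g.K) (F : Gr g.S) : g.db k F = del (sv g k 1) (del (sv g k 0) F) := rfl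

theorem val_bv (k : g.K) : Ev.val (g.bv k) = psi (sv g k 0) * psi (sv g k 1) := val_pp _ _

theorem sv_dot (k k' : g.K) (i i' : Fin 2) :
    sv g k i ⬝ᵥ sv g k' i' = if (k, i) = (k', i') then 1 else 0 := by
  rw [single_one_dotProduct, sv, Pi.single_apply]
  simp only [Sum.inr.injEq]

theorem loc_univ (F : Gr g.S) : F ∈ loc (g.gens univ) := by
  have e : g.gens univ = Set.univ := Set.eq_univ_of_forall fun s => mem_univ (g.pos s)
  rw [e]
  exact A1.mem_loc_univ F

theorem prB_prF : prB g ∘ₗ prF g = 0 := by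
  refine LinearMap.ext fun δ => funext fun s => ?_
  cases s <;> simp [res_apply]

theorem prF_prB : prF g ∘ₗ prB g = 0 := by
  refine LinearMap.ext fun δ => funext fun s => ?_
  cases s <;> simp [res_apply]

theorem prF_flip : prF g ∘ₗ g.flip = prF g ∘ₗ (-LinearMap.id) := by
  refine LinearMap.ext fun δ => funext fun s => ?_
  rw [LinearMap.comp_apply, LinearMap.comp_apply, res_apply, res_apply, flip_apply]
  cases s <;> simp

theorem flip_del (k : g.K) (i : Fin 2) (F : Gr g.S) :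
    ExteriorAlgebra.map g.flip (del (sv g k i) F)
      = del (sv g k i) (ExteriorAlgebra.map g.flip F) :=
  (del_map g.flip (sv g k i) (sv g k i) (A1.mem_loc_univ F) fun s _ => by
    rcases s with s | s
    · rw [← ex_single, flip_ex, neg_dotProduct, ex_dot_src, neg_zero]
      simp [sv]
    · rw [flip_src, single_one_dotProduct]).symm

theorem val_db (k : g.K) (F : g.E) :
    Ev.val (toEv (g.db k (Ev.val F))) = g.db k (Ev.val F) :=
  val_toEv (del_del_even (Ev.val_mem F) _ _)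

theorem db_mem {X : Finset g.P} {F : g.E} (hF : F ∈ g.sub X) (k : g.K) :
    toEv (g.db k (Ev.val F)) ∈ g.sub X := by
  refine mem_sub.2 ⟨?_, ?_⟩
  · rw [val_db]; exact del_loc _ (del_loc _ (sub_loc hF))
  · rw [val_db, db_apply, flip_del, flip_del, sub_flip hF]

/-- The terms with one source generator vanish. -/
theorem prF_del {X : Finset g.P} {F : g.E} (hF : F ∈ g.sub X) (k : g.K) (i : Fin 2) :
    ExteriorAlgebra.map (prF g) (del (sv g k i) (Ev.val F)) = 0 := by
  have e1 := congrArg (ExteriorAlgebra.map (prF g)) (flip_del k i (Ev.val F))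
  rw [sub_flip hF, RN.map_map, prF_flip, ← RN.map_map, map_neg_id, A1.inv_del,
    A1.mem_even_iff.1 (Ev.val_mem F), map_neg] at e1
  have e4 : (2 : ℝ) • ExteriorAlgebra.map (prF g) (del (sv g k i) (Ev.val F)) = 0 := by
    rw [two_smul]; nth_rewrite 1 [← e1]; exact neg_add_cancel _
  exact (smul_eq_zero.1 e4).resolve_left two_ne_zero

/-- Expansion in the two generators of the only source. -/
theorem expand {X : Finset g.P} {G : Gr g.S} (hG : G ∈ loc (g.gens X)) (k : g.K)
    (hk : ∀ k', (g.src k').y ∈ X → k' = k) :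
    G = ExteriorAlgebra.map (prF g) G
      + psi (sv g k 0) * ExteriorAlgebra.map (prF g) (del (sv g k 0) G)
      + psi (sv g k 1) * (ExteriorAlgebra.map (prF g) (del (sv g k 1) G) + psi (sv g k 0) *
        ExteriorAlgebra.map (prF g) (del (sv g k 0) (del (sv g k 1) G))) := by
  have h0 := fun H => A5.map_rank_one (prF g) (sv g k 0) (sv g k 0) 1 H
  have h1 := A5.map_rank_one (prF g + (1 : ℝ) • (pair (sv g k 0)).smulRight (sv g k 0))
    (sv g k 1) (sv g k 1) 1 G
  rw [h0, h0] at h1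
  simp only [one_smul] at h1
  rw [← h1]
  refine (map_id' G).symm.trans (map_congr hG fun s hs => ?_)
  simp only [LinearMap.id_apply, LinearMap.add_apply, LinearMap.smulRight_apply]
  show _ = _ + (_ ⬝ᵥ _) • _ + (_ ⬝ᵥ _) • _
  rcases s with s | ⟨k', i⟩
  · rw [← ex_single, prF_ex, ex_dot_src, ex_dot_src, zero_smul, zero_smul, add_zero, add_zero]
  · obtain rfl := hk k' hs
    rw [prF_src, sv_dot, sv_dot]
    fin_cases i <;> simp

/-- Diagonal substitutions preserve the local algebras. -/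
theorem diag_mem {f : (g.S → ℝ) →ₗ[ℝ] (g.S → ℝ)} {c : g.S → ℝ}
    (hf : ∀ s, f (Pi.single s 1) = c s • Pi.single s 1) {X : Finset g.P} {F : g.E}
    (hF : F ∈ g.sub X) : evMap f F ∈ g.sub X := by
  refine mem_sub.2 ⟨?_, ?_⟩
  · rw [val_evMap]
    refine map_loc (sub_loc hF) fun s hs s' hs' => ?_
    rw [hf, Pi.smul_apply, Pi.single_eq_of_ne (fun e : s' = s => hs' (e ▸ hs)), smul_zero]
  · rw [val_evMap, RN.map_map]
    conv_rhs => rw [← sub_flip hF, RN.map_map]
    refine map_congr (sub_loc hF) fun s _ => ?_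
    rw [LinearMap.comp_apply, LinearMap.comp_apply, hf, map_smul, flip_single, map_smul, hf,
      smul_comm]

end R1

namespace Geo

section R1
variable {g : Geo} {ℓ ℓ' : ℕ} {h h' β β' : ℝ} {X Y : Finset g.P} {F : g.E}

theorem adm_cons (hA : IsSign g.A) (hℓ : 1 ≤ ℓ) (hh : 0 < h) (hβ : 0 < β) (X : Finset g.P) :
    Adm (g.cons ℓ h β X) (g.gens X) := RN.adm hℓ hh hβ X

theorem exists_locSys (hA : IsSign g.A) (hℓ : 1 ≤ ℓ) (hh : 0 < h) (hβ : 0 < β) :
    ∃ 𝓛 : LocSys g.P g.E, 𝓛.sub = g.sub ∧ 𝓛.p = g.pn ℓ h β := ⟨RN.locSys g hℓ hh hβ, rfl, rfl⟩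

theorem sub_mono (hXY : X ⊆ Y) : g.sub X ≤ g.sub Y := RN.sub_mono hXY

theorem sub_univ_iff : F ∈ g.sub univ ↔ evMap g.flip F = F := by
  refine RN.mem_sub.trans ⟨fun h => Ev.val_injective (by rw [val_evMap]; exact h.2), fun h =>
    ⟨R1.loc_univ _, ?_⟩⟩
  rw [← val_evMap, h]

theorem noF_one : g.noF 1 = 1 := I2.evMap_one _
theorem noF_mul (F G : g.E) : g.noF (F * G) = g.noF F * g.noF G := I2.evMap_mul _ F G
theorem noB_one : g.noB 1 = 1 := I2.evMap_one _
theorem noB_mul (F G : g.E) : g.noB (F * G) = g.noB F * g.noB G := I2.evMap_mul _ F G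
theorem noF_noF (F : g.E) : g.noF (g.noF F) = g.noF F :=
  (R1.evMap_evMap _ _ F).trans (by rw [R1.res_res]; rfl)
theorem noB_noB (F : g.E) : g.noB (g.noB F) = g.noB F :=
  (R1.evMap_evMap _ _ F).trans (by rw [R1.res_res]; rfl)
theorem noF_noB (F : g.E) : g.noF (g.noB F) = aug (Ev.val F) • (1 : g.E) :=
  (R1.evMap_evMap _ _ F).trans (by rw [R1.prB_prF, R1.evMap_zero])
theorem noB_noF (F : g.E) : g.noB (g.noF F) = aug (Ev.val F) • (1 : g.E) :=
  (R1.evMap_evMap _ _ F).trans (by rw [R1.prF_prB, R1.evMap_zero])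
theorem noF_mem (hF : F ∈ g.sub X) : g.noF F ∈ g.sub X := RN.noF_mem hF
theorem noB_mem (hF : F ∈ g.sub X) : g.noB F ∈ g.sub X := RN.noB_mem hF
theorem dp_mem (hF : F ∈ g.sub X) (Y : Finset g.P) : g.dp ℓ Y F ∈ g.sub X := by
  unfold Geo.dp
  split_ifs
  · exact Subalgebra.sub_mem _ hF (noB_mem hF)
  · exact hF
theorem noB_of_no_src (hF : F ∈ g.sub X) (hX : ∀ k, (g.src k).y ∉ X) : g.noB F = F := by
  apply Ev.val_injective
  refine (val_evMap _ F).trans (Eq.trans (map_congr (RN.sub_loc hF) fun s hs => ?_)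
    (R1.map_id' _))
  rcases s with s | ⟨k, i⟩
  · rw [← RN.ex_single]; exact RN.prF_ex g _
  · exact (hX k hs).elim
theorem noB_evG (C : Matrix (Tor g.M × Fin 4) (Tor g.M × Fin 4) ℝ) (hC : Cᵀ = -C) (F : g.E) :
    g.noB (evG (g.exM C) F) = evG (g.exM C) (g.noB F) := by
  apply Ev.val_injective
  unfold Geo.noB
  rw [val_evMap, val_evG, val_evG, val_evMap]
  refine (gauss_map (RN.exM_anti hC) (RN.exM_anti hC) _ (A1.mem_loc_univ _)
    fun s _ s' _ => ?_).symm
  have e : ∀ a : g.S → ℝ, RN.prF g a ∘ Sum.inl = a ∘ Sum.inl := fun a => funext fun t => by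
    simp [RN.res_apply]
  rw [RN.exM_dot, e, e, ← RN.exM_dot, single_one_dotProduct, mulVec_single_one]
  rfl
theorem evG_mem (C : Matrix (Tor g.M × Fin 4) (Tor g.M × Fin 4) ℝ) (hC : Cᵀ = -C)
    (hF : F ∈ g.sub X) : evG (g.exM C) F ∈ g.sub X := RN.evG_mem hC hF
theorem evG_src_mul (C : Matrix (Tor g.M × Fin 4) (Tor g.M × Fin 4) ℝ) (hC : Cᵀ = -C) {c : g.E}
    (hc : g.noF c = c) (F : g.E) : evG (g.exM C) (c * F) = c * evG (g.exM C) F := by
  apply Ev.val_injective
  have h1 : Ev.val c ∈ loc (Set.range (Sum.inr : g.K × Fin 2 → g.S)) := by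
    rw [← hc]
    unfold Geo.noF
    rw [val_evMap]
    exact map_loc (A1.mem_loc_univ _) fun s _ s' hs' => by rw [RN.res_apply, if_neg hs']
  have h2 : ∀ s ∈ Set.range (Sum.inr : g.K × Fin 2 → g.S), ∀ s', g.exM C s s' = 0 := by
    rintro _ ⟨k, rfl⟩ s'
    cases s' <;> rfl
  rw [val_evG, map_mul Ev.val, map_mul Ev.val, val_evG, gauss_mul (RN.exM_anti hC) h1 (A1.mem_loc_univ _)
    fun s hs s' _ => h2 s hs s', gauss_congr (C' := 0) (RN.exM_anti hC) (by simp) h1
    fun s hs s' _ => h2 s hs s', gauss_zero]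
theorem bv_mem {k : g.K} (hk : (g.src k).y ∈ X) : g.bv k ∈ g.sub X := by
  have h : ∀ i, psi (R1.sv g k i) ∈ loc (g.gens X) := fun i => A1.gen_mem (T := g.gens X) hk
  refine RN.mem_sub.2 ⟨?_, ?_⟩
  · rw [R1.val_bv]; exact Subalgebra.mul_mem _ (h 0) (h 1)
  · rw [R1.val_bv, map_mul, A1.map_psi, A1.map_psi, RN.flip_src, RN.flip_src]
theorem bv_sq (k : g.K) : g.bv k * g.bv k = 0 := I2.pp_sq _ _
theorem noF_bv (k : g.K) : g.noF (g.bv k) = g.bv k :=
  (I2.evMap_pp _ _ _).trans (by rw [RN.prB_src, RN.prB_src]; rfl)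
theorem noB_bv (k : g.K) : g.noB (g.bv k) = 0 :=
  (I2.evMap_pp _ _ _).trans (Ev.val_injective (by
    rw [RN.prF_src, val_pp, A1.psi_zero, zero_mul, map_zero]))

/-- With at most one source in `X`, an element is affine in its variable. -/
theorem eq_of_one_src (hF : F ∈ g.sub X) (k : g.K) (hk : ∀ k', (g.src k').y ∈ X → k' = k) :
    F = g.noB F + g.bv k * toEv (g.db k (Ev.val F)) ∧ toEv (g.db k (Ev.val F)) ∈ g.sub X ∧
      g.noB (toEv (g.db k (Ev.val F))) = toEv (g.db k (Ev.val F)) := by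
  have h1 := R1.db_mem hF k
  have h2 : ExteriorAlgebra.map (RN.prF g) (g.db k (Ev.val F)) = g.db k (Ev.val F) := by
    have h3 := RN.sub_loc h1
    rw [R1.val_db] at h3
    have h4 := R1.expand h3 k hk
    have h5 : del (R1.sv g k 1) (g.db k (Ev.val F)) = 0 := A1.del_del _ _
    have h6 : del (R1.sv g k 0) (g.db k (Ev.val F)) = 0 := by
      rw [R1.db_apply, A1.del_comm, A1.del_del, map_zero, neg_zero]
    rw [h5, h6] at h4
    simp only [map_zero, mul_zero, add_zero] at h4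
    exact h4.symm
  refine ⟨Ev.val_injective ?_, h1, Ev.val_injective ?_⟩
  · have h4 := R1.expand (RN.sub_loc hF) k hk
    rw [R1.prF_del hF, R1.prF_del hF, A1.del_comm, ← R1.db_apply, map_neg, h2, mul_zero, add_zero,
      zero_add, ← mul_assoc, A1.psi_swap, neg_mul_neg] at h4
    rw [map_add, map_mul, R1.val_db, R1.val_bv]
    exact h4.trans (congrArg (· + _) (val_evMap _ F).symm)
  · exact (val_evMap _ _).trans (by rw [R1.val_db]; exact h2)

theorem db_of_not_mem (hF : F ∈ g.sub X) {k : g.K} (hk : (g.src k).y ∉ X) :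
    g.db k (Ev.val F) = 0 := by
  rw [R1.db_apply, del_congr (g' := 0) (RN.sub_loc hF) fun s hs =>
    Pi.single_eq_of_ne (fun e => hk (by rw [e] at hs; exact hs)) _, A1.del_zero_left, map_zero]

theorem nd_mono (hXY : X ⊆ Y) (hℓ : ℓ ≤ ℓ') (h : g.nd ℓ' Y) : g.nd ℓ X := by
  have h1 := stein_mono hXY
  exact ⟨fun x hx f hf => h.1 x (hXY hx) f (by omega), by have := h.2; omega⟩

end R1

end Geo

end Vale.Agent.P144Z
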